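import Vale.Agent.P251.H.PuppeInst
import Vale.Agent.P251.H.UnitTT

/-!
# P251C: stable equivalences are detected by spheres

* `piW_iff_acyc`: `f` is a stable equivalence iff its mapping cone is acyclic.
* `Triv.ext`: exactness of stable classes in the first variable (vanishing form).
* `piW_sph_iff`, `piW_sph_eq`: the test objects `L^n ⊗ S^m` and `L^n ⊗ K` (`K` a finite cell
  space) define the same stable equivalences.
-/

open CategoryTheory MonoidalCategory Limits ZeroObject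

namespace Vale.Agent.P251CL

open Vale.Agent.P251 Vale.Agent.P251.G Vale.Agent.P251.G.LC Vale.Agent.P251.H
  Vale.Agent.P251.H.StabInput

universe v u

variable {M : Type u} [Category.{v} M] [MonoidalCategory M] [SymmetricCategory M]
    [MonoidalClosed M] [HasZeroMorphisms M] [HasColimitsOfSize.{0, 0} M] [StabInput M]

/-- all stable classes `A ⟶ Z` vanish -/
def Triv (A Z : M) : Prop := ∀ x : PiM A Z, x = pz A Z

/-- `Z` is acyclic for the test objects `GG` -/
def Acyc (GG : ObjectProperty M) (Z : M) : Prop := ∀ A, GG A → Triv A Z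

theorem comapM_pz {A B : M} (a : A ⟶ B) (Z : M) : comapM a Z (pz B Z) = pz A Z := by
  refine (CoPt.comap_cl _ _ _ _ _).trans ?_
  unfold pz
  rw [CoPt.pwMap_zero, ← Functor.map_comp, comp_zero]

theorem comapM_comp {A B D : M} (a : A ⟶ B) (b : B ⟶ D) (Z : M) (x : PiM D Z) :
    comapM (a ≫ b) Z x = comapM a Z (comapM b Z x) := by
  rw [comapM, Functor.map_comp, CoPt.comap_comp]

theorem comapM_id (A Z : M) (x : PiM A Z) : comapM (𝟙 A) Z x = x := by
  rw [comapM, CategoryTheory.Functor.map_id, CoPt.comap_id]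

theorem comapM_congr {A B : M} {a b : A ⟶ B} (h : MHtpy a b) (Z : M) :
    comapM a Z = comapM b Z := by
  rw [comapM, comapM, HM.sound h]

theorem Triv.of_retract {A B Z : M} (h : Triv A Z) (f : A ⟶ B) (g : B ⟶ A)
    (hg : MHtpy (g ≫ f) (𝟙 B)) : Triv B Z := by
  intro x
  rw [← comapM_id B Z x, ← comapM_congr hg, comapM_comp, h (comapM f Z x), comapM_pz]

theorem Triv.of_iso {A B Z : M} (h : Triv A Z) (e : A ≅ B) : Triv B Z :=
  h.of_retract e.hom e.inv (MHtpy.of_eq e.inv_hom_id)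

theorem triv_of_isZero {A : M} (hA : IsZero A) (Z : M) : Triv A Z := by
  intro x
  have h : 𝟙 A = (0 : A ⟶ A) := hA.eq_of_src _ _
  rw [← comapM_id A Z x, h]
  obtain ⟨k, y, rfl⟩ := CoPt.cl_surj x
  refine (CoPt.comap_cl _ _ _ _ _).trans ?_
  have h1 : ∀ k : ℕ, (stab M).coPt.pwMap k ((HM.proj M).map (0 : A ⟶ A)) = 0 := by
    intro k
    induction k with
    | zero => rfl
    | succ k ih =>
      rw [CoPt.pwMap_succ, ih]
      exact congrArg (HM.proj M).map (whiskerLeft_zero' (U M))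
  rw [h1, zero_comp, cl_zero]

theorem triv_of_contr (A : M) {Z : M} (hZ : MHtpy (𝟙 Z) 0) : Triv A Z := by
  intro x
  rw [← mapM_id A Z x, mapM_of_mHtpy_zero A hZ]

/-- the iterated stabilization of a cofibre sequence is a cofibre sequence -/
theorem exists_pw_cofibre {A B Q : M} {i : A ⟶ B} {q : B ⟶ Q} (hi : HCof i) (hq : IsCofibre i q)
    (m : ℕ) :
    ∃ (i' : ((stab M).coPt.pw m ((HM.proj M).obj A)).obj ⟶
        ((stab M).coPt.pw m ((HM.proj M).obj B)).obj)
      (q' : ((stab M).coPt.pw m ((HM.proj M).obj B)).obj ⟶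
        ((stab M).coPt.pw m ((HM.proj M).obj Q)).obj),
      (HM.proj M).map i' = (stab M).coPt.pwMap m ((HM.proj M).map i) ∧
      (HM.proj M).map q' = (stab M).coPt.pwMap m ((HM.proj M).map q) ∧
      HCof i' ∧ IsCofibre i' q' := by
  induction m with
  | zero => exact ⟨i, q, rfl, rfl, hi, hq⟩
  | succ m ih =>
    obtain ⟨i', q', h1, h2, h3, h4⟩ := ih
    refine ⟨U M ◁ i', U M ◁ q', ?_, ?_, h3.whiskerLeft _, isCofibre_whiskerLeft h4 _⟩
    · rw [CoPt.pwMap_succ, ← h1]
      rfl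
    · rw [CoPt.pwMap_succ, ← h2]
      rfl

/-- exactness of stable classes in the first variable -/
theorem exists_comapM {A B Q : M} {i : A ⟶ B} {q : B ⟶ Q} (hi : HCof i) (hq : IsCofibre i q)
    {Z : M} (x : PiM B Z) (hx : comapM i Z x = pz A Z) : ∃ y : PiM Q Z, comapM q Z y = x := by
  obtain ⟨k, g, rfl⟩ := CoPt.cl_surj x
  have hy : (stab M).coPt.cl k ((stab M).coPt.pwMap k ((HM.proj M).map i) ≫ g) =
      (stab M).coPt.cl (A := (HM.proj M).obj A) (X := (HM.proj M).obj Z) k 0 := by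
    rw [cl_zero]
    exact hx
  rw [CoPt.cl_eq_iff'] at hy
  obtain ⟨m, hkm, e⟩ := hy
  rw [comp_zero, ← Category.assoc, ← CoPt.tr_nat, Category.assoc] at e
  rw [← CoPt.cl_tr hkm g]
  obtain ⟨i', q', h1, h2, h3, h4⟩ := exists_pw_cofibre hi hq m
  obtain ⟨g', hg'⟩ : ∃ g' : ((stab M).coPt.pw m ((HM.proj M).obj B)).obj ⟶ Z,
      (HM.proj M).map g' = (stab M).coPt.tr hkm ((HM.proj M).obj B) ≫ g :=
    HM.proj_map_surjective _
  rw [← hg', ← h1] at e
  obtain ⟨H, H0, H1⟩ : MHtpy (i' ≫ g') 0 := (HM.proj_map_eq_iff _ _).mp (by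
    rw [Functor.map_comp, HM.proj_map_zero]
    exact e)
  obtain ⟨K, K0, K1⟩ := h3 Z g' H H0
  obtain ⟨y, hy⟩ := h4.exists_desc (inc 1 _ ≫ K) (by
    rw [← inc_naturality_assoc, K1]
    exact H1)
  refine ⟨(stab M).coPt.cl m ((HM.proj M).map y), ?_⟩
  refine (CoPt.comap_cl _ _ _ _ _).trans ?_
  rw [← h2, ← hg']
  refine congrArg ((stab M).coPt.cl m) ?_
  have h5 : MHtpy (q' ≫ y) g' := by
    rw [hy]
    exact MHtpy.symm ⟨K, K0, rfl⟩
  exact HM.sound h5

theorem Triv.ext {A B Q Z : M} {i : A ⟶ B} {q : B ⟶ Q} (hi : HCof i) (hq : IsCofibre i q)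
    (hA : Triv A Z) (hQ : Triv Q Z) : Triv B Z := by
  intro x
  obtain ⟨y, rfl⟩ := exists_comapM hi hq x (hA _)
  rw [hQ y, comapM_pz]

/-- the cone sequence of an identity -/
theorem isCone_id (X : M) : IsCone (𝟙 X) (𝟙 (X ⊗ CI M)) (coneBase X) (X ◁ collM) where
  po := IsPushout.of_vert_isIso ⟨by rw [Category.comp_id, Category.id_comp]⟩
  kq := Category.id_comp _
  iq := coneBase_collM X

/-- `f` is a stable equivalence iff its mapping cone is acyclic -/
theorem piW_iff_acyc (GG : ObjectProperty M) [IsTest GG] {X Y C : M} {f : X ⟶ Y}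
    {k : X ⊗ CI M ⟶ C} {i : Y ⟶ C} {q : C ⟶ X ⊗ S M} (h : IsCone f k i q) :
    piW GG f ↔ Acyc GG C := by
  have h5 := (puppeInput M).five_cone (GG := GG) (isCone_id X) h (𝟙 X) f k rfl
    (by rw [id_whiskerRight]) h.po.w
  have h6 : piW GG f ↔ piW GG k :=
    ⟨fun hf => h5.1 (piW_of_isIso _) hf, fun hk => h5.2.2 (piW_of_isIso _) hk⟩
  rw [h6, piW_iff]
  constructor
  · intro hk A hA x
    obtain ⟨y, rfl⟩ := (hk A hA).2 x
    rw [triv_of_contr A (mHtpy_id_cone X) y, mapM_pz]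
  · intro hC A hA
    refine ⟨fun y y' _ => ?_, fun x => ⟨pz _ _, ?_⟩⟩
    · rw [triv_of_contr A (mHtpy_id_cone X) y, triv_of_contr A (mHtpy_id_cone X) y']
    · rw [mapM_pz, hC A hA x]

/-- `ℝ⁰` is the point -/
def sphZero : 𝟙_ LC ≅ Sph 0 :=
  LC.ofHomeo (X := LC.of Unit) (Y := Sph 0)
    { toFun := fun _ => default
      invFun := fun _ => ()
      left_inv := fun _ => rfl
      right_inv := fun _ => Subsingleton.elim _ _
      continuous_toFun := continuous_const
      continuous_invFun := continuous_const }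

/-- `ℝ × ℝⁿ = ℝⁿ⁺¹`, the new coordinate first -/
def sphSucc (n : ℕ) : RR ⊗ Sph n ≅ Sph (n + 1) :=
  LC.ofHomeo (X := LC.of (ℝ × (Fin n → ℝ))) (Y := Sph (n + 1))
    { toFun := fun p => (Fin.cons p.1 p.2 : Fin (n + 1) → ℝ)
      invFun := fun x => (x 0, Fin.tail x)
      left_inv := fun _ => rfl
      right_inv := fun x => Fin.cons_self_tail x
      continuous_toFun := by
        refine continuous_pi fun i => ?_
        refine Fin.cases ?_ (fun j => ?_) i
        · exact continuous_fst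
        · exact (continuous_apply j).comp continuous_snd
      continuous_invFun := (continuous_apply 0).prodMk
        (continuous_pi fun j => continuous_apply j.succ) }

theorem exists_isSph (m : ℕ) : ∃ K, IsSph K ∧ Nonempty (K ≅ Sph m) := by
  induction m with
  | zero => exact ⟨_, IsSph.unit, ⟨sphZero⟩⟩
  | succ m ih =>
    obtain ⟨K, hK, ⟨e⟩⟩ := ih
    exact ⟨_, hK.susp, ⟨whiskerLeftIso RR e ≪≫ sphSucc m⟩⟩

theorem IsSph.exists_iso {K : LC} (h : IsSph K) : ∃ m, Nonempty (K ≅ Sph m) := by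
  induction h with
  | unit => exact ⟨0, ⟨sphZero⟩⟩
  | susp _ ih =>
    obtain ⟨m, ⟨e⟩⟩ := ih
    exact ⟨m + 1, ⟨whiskerLeftIso RR e ≪≫ sphSucc m⟩⟩

theorem IsSph.fc {K : LC} (h : IsSph K) : LC.FC K := by
  obtain ⟨m, ⟨e⟩⟩ := IsSph.exists_iso h
  exact (LC.FC.sph m).hequiv
    ⟨e.inv, e.hom, Homotopic.of_eq e.inv_hom_id, Homotopic.of_eq e.hom_inv_id⟩

/-- vanishing on the spherical cells gives vanishing on all finite cells -/
theorem triv_cell_of_sph {Z : M} (h : ∀ n m : ℕ, Triv (cell n (Sph m) : M) Z) (n : ℕ) {K : LC}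
    (hK : LC.FC K) : Triv (cell n K : M) Z := by
  induction hK with
  | empty => exact triv_of_isZero (StabInput.isZero_tensor_right _ StabInput.isZero_empty) Z
  | sph m => exact h n m
  | hequiv _ e ih =>
    obtain ⟨f, g, -, h2⟩ := e
    refine ih.of_retract (tpow (L : M) n ◁ (J M).map f) (tpow (L : M) n ◁ (J M).map g) ?_
    rw [← MonoidalCategory.whiskerLeft_comp, ← Functor.map_comp]
    refine ((MHtpy.map h2).whiskerLeft _).trans (MHtpy.of_eq ?_)
    rw [CategoryTheory.Functor.map_id, MonoidalCategory.whiskerLeft_id]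
  | @ext A B i hi _ _ ihA ihC =>
    have h1 : HCof ((J M).map i) := fun Z f H e => exists_ext_of_cofib hi Z f H e
    exact Triv.ext (h1.whiskerLeft (tpow (L : M) n))
      (isCofibre_whiskerLeft (isCofibre_J i hi.injective) _) ihA ihC

/-- Every class of finite cell spaces which contains the spheres up to isomorphism and is closed
under suspension gives the same stable equivalences as the class of all finite cell spaces. -/
theorem piW_cells_iff (AA : ObjectProperty LC) [Fact (∀ K, AA K → AA (RR ⊗ K))]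
    (h₁ : ∀ K, AA K → LC.FC K) (h₂ : ∀ m, ∃ K, AA K ∧ Nonempty (K ≅ Sph m)) {X Y : M}
    (f : X ⟶ Y) : piW (cells AA) f ↔ piW (cells I.FCP) f := by
  obtain ⟨C, k, i, q, h⟩ := IsCone.exists_isCone f
  rw [piW_iff_acyc _ h, piW_iff_acyc _ h]
  constructor
  · rintro hC A ⟨n, K, hK, ⟨e⟩⟩
    refine (triv_cell_of_sph (fun n m => ?_) n hK).of_iso e.symm
    obtain ⟨K', hK', ⟨e'⟩⟩ := h₂ m
    exact hC _ ⟨n, K', hK', ⟨whiskerLeftIso _ ((J M).mapIso e'.symm)⟩⟩
  · rintro hC A ⟨n, K, hK, he⟩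
    exact hC A ⟨n, K, h₁ K hK, he⟩

theorem piW_sph_iff {X Y : M} (f : X ⟶ Y) : piW (cells IsSph) f ↔ piW (cells I.FCP) f :=
  piW_cells_iff IsSph (fun _ h => IsSph.fc h) exists_isSph f

theorem piW_sph_eq : piW (cells IsSph : ObjectProperty M) = piW (cells I.FCP) := by
  ext X Y f
  exact piW_sph_iff f

/-- stable equivalences are detected by the cells `L^n ⊗ S^m` -/
theorem piW_iff_sph {X Y : M} (f : X ⟶ Y) :
    piW (cells I.FCP) f ↔ ∀ n m : ℕ, Function.Bijective (mapM (cell n (Sph m) : M) f) := by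
  constructor
  · intro h n m
    exact (piW_iff f).mp h _ ⟨n, Sph m, LC.FC.sph m, ⟨Iso.refl _⟩⟩
  · intro h
    rw [← piW_sph_iff, piW_iff]
    rintro A ⟨n, K, hK, ⟨e⟩⟩
    obtain ⟨m, ⟨e'⟩⟩ := IsSph.exists_iso hK
    let e'' : A ≅ cell n (Sph m) := e ≪≫ whiskerLeftIso _ ((J M).mapIso e')
    exact ((stab M).bijective_map_comap ((HM.proj M).map e''.hom)
      (fun X => CoPt.bijective_comap_of_isIso _ _ X) ((HM.proj M).map f)).mpr (h n m)

end Vale.Agent.P251CL
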