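import Vale.Agent.P251CL.Loc
import Vale.Agent.P251.H.FlatCat

/-!
# P251C: the localization of `M` through a flat replacement

For a functor `Q : M ⥤ M` with flat values and a natural weak equivalence `q : Q ⟶ 1`, and a
localization `L₀` of the category of flat objects, `liftQ W Q hQ ⋙ L₀` is a localization of `M`.
-/

open CategoryTheory MonoidalCategory Limits

namespace Vale.Agent.P251CL

open Vale.Agent.P251.H Vale.Agent.P251.H.StabInput

universe v' u' v u

variable {M : Type u} [Category.{v} M] [MonoidalCategory M] [SymmetricCategory M]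
    [MonoidalClosed M] [HasZeroMorphisms M] [HasColimitsOfSize.{0, 0} M] [StabInput M]

variable (W : MorphismProperty M) [hW : GoodW W]

/-- a good class has the 2 out of 3 property -/
theorem twoOutOfThree : W.HasTwoOutOfThreeProperty where
  comp_mem f g hf hg := hW.comp f g hf hg
  of_postcomp f g hg hfg := hW.right f g hg hfg
  of_precomp f g hf hfg := hW.left f g hf hfg

theorem W_flat_eq : CofCat.W (C := FlatCat W) = W.inverseImage (Flat W).ι := rfl

variable (Q : M ⥤ M) (hQ : ∀ X, Flat W (Q.obj X)) (q : Q ⟶ 𝟭 M) (hq : ∀ X, W (q.app X))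

/-- the replacement functor with values in the category of flat objects -/
abbrev liftQ : M ⥤ FlatCat W := (Flat W).lift Q hQ

/-- the natural map from the replacement -/
def liftq : liftQ W Q hQ ⋙ (Flat W).ι ⟶ 𝟭 M where
  app X := q.app X
  naturality _ _ f := q.naturality f

variable {D : Type u'} [Category.{v'} D] (L₀ : FlatCat W ⥤ D)
  [hL : L₀.IsLocalization (CofCat.W (C := FlatCat W))]

include q hq in
/-- The localization of `M`. -/
theorem isLocalization_flat : (liftQ W Q hQ ⋙ L₀).IsLocalization W :=
  haveI := twoOutOfThree W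
  haveI : L₀.IsLocalization (W.inverseImage (Flat W).ι) := hL
  isLocalization_repl W (Flat W) (liftQ W Q hQ) (liftq W Q hQ q) hq L₀

/-- On flat objects the localization of `M` is the localization of the flat objects. -/
noncomputable def flatIso : (Flat W).ι ⋙ liftQ W Q hQ ⋙ L₀ ≅ L₀ :=
  replIso W (Flat W) (liftQ W Q hQ) (liftq W Q hQ q) hq L₀
    (Localization.inverts L₀ (CofCat.W (C := FlatCat W)))

theorem flatIso_hom_app (X : FlatCat W) :
    (flatIso W Q hQ q hq L₀).hom.app X =
      L₀.map (ObjectProperty.homMk (q.app X.obj) : (liftQ W Q hQ).obj X.obj ⟶ X) :=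
  replIso_hom_app W (Flat W) (liftQ W Q hQ) (liftq W Q hQ q) hq L₀ _ X

include q hq in
theorem W_Q_map_iff {X Y : M} (f : X ⟶ Y) : W (Q.map f) ↔ W f := by
  have h : Q.map f ≫ q.app Y = q.app X ≫ f := q.naturality f
  constructor
  · intro hf
    exact hW.left (q.app X) f (hq X) (h ▸ hW.comp _ _ hf (hq Y))
  · intro hf
    exact hW.right (Q.map f) (q.app Y) (hq Y) (h ▸ hW.comp _ _ (hq X) hf)

include q hq in
/-- Transfer to a category `A` with an adjunction `ρ ⊣ i` whose unit is a weak equivalence on the
values of `Q`. -/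
theorem isLocalization_flat_adj {A : Type*} [Category* A] (W' : MorphismProperty A) {ρ : M ⥤ A}
    {i : A ⥤ M} (adj : ρ ⊣ i) (hi : ∀ {X Y : A} (f : X ⟶ Y), W' f ↔ W (i.map f))
    (hu : ∀ Y, W (adj.unit.app (Q.obj Y))) :
    (i ⋙ liftQ W Q hQ ⋙ L₀).IsLocalization W' :=
  haveI := twoOutOfThree W
  haveI := isLocalization_flat W Q hQ q hq L₀
  isLocalization_adj W' W adj hi Q q hq hu (liftQ W Q hQ ⋙ L₀)

end Vale.Agent.P251CL
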