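import Mathlib.CategoryTheory.Localization.Equivalence
import Mathlib.CategoryTheory.Localization.LocalizerMorphism
import Mathlib.CategoryTheory.ObjectProperty.FullSubcategory
import Mathlib.CategoryTheory.MorphismProperty.Composition

/-!
# P251C: comparison of localizations

* `isLocalization_comp`: if `Φ : A ⥤ C` and `Ψ : C ⥤ A` are inverse to each other after
  localization, and `L` is a localization of `C`, then `Φ ⋙ L` is a localization of `A`.
* `isLocalization_repl`: a functorial replacement `Q` into a full subcategory.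
* `isLocalization_transfer`: transfer along `i : A ⥤ C` with a homotopy inverse `r`.
-/

open CategoryTheory CategoryTheory.Functor

namespace Vale.Agent.P251CL

section general

variable {A : Type*} {C : Type*} {D : Type*} [Category* A] [Category* C] [Category* D]

/-- a natural transformation whose components are inverted by `L` becomes an isomorphism -/
noncomputable def isoOfInverts {B : Type*} [Category* B] {F G : B ⥤ C} (L : C ⥤ D) (t : F ⟶ G)
    (h : ∀ X, IsIso (L.map (t.app X))) : F ⋙ L ≅ G ⋙ L :=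
  NatIso.ofComponents (fun X => @asIso _ _ _ _ (L.map (t.app X)) (h X)) (fun {X Y} f => by
    change L.map (F.map f) ≫ L.map (t.app Y) = L.map (t.app X) ≫ L.map (G.map f)
    rw [← L.map_comp, ← L.map_comp, t.naturality])

theorem isoOfInverts_hom_app {B : Type*} [Category* B] {F G : B ⥤ C} (L : C ⥤ D) (t : F ⟶ G)
    (h : ∀ X, IsIso (L.map (t.app X))) (X : B) :
    (isoOfInverts L t h).hom.app X = L.map (t.app X) := rfl

/-- Functors which are inverse to each other after localization. -/
theorem isLocalization_comp (W₁ : MorphismProperty A) (W₂ : MorphismProperty C) (Φ : A ⥤ C)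
    (Ψ : C ⥤ A) (L : C ⥤ D) [L.IsLocalization W₂] (h₁ : W₁.IsInvertedBy (Φ ⋙ L))
    (h₂ : W₂.IsInvertedBy (Ψ ⋙ W₁.Q)) (α : Φ ⋙ Ψ ⋙ W₁.Q ≅ W₁.Q) (β : Ψ ⋙ Φ ⋙ L ≅ L) :
    (Φ ⋙ L).IsLocalization W₁ where
  inverts := h₁
  isEquivalence :=
    Localization.isEquivalence W₁.Q W₁ L W₂ (Φ ⋙ L) (Localization.Construction.lift (Φ ⋙ L) h₁)
      (Ψ ⋙ W₁.Q) (Localization.lift (Ψ ⋙ W₁.Q) h₂ L)
      (Functor.associator _ _ _ ≪≫ isoWhiskerLeft Φ (Localization.fac (Ψ ⋙ W₁.Q) h₂ L) ≪≫ α)
      (Functor.associator _ _ _ ≪≫ isoWhiskerLeft Ψ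
        (Localization.Lifting.iso W₁.Q W₁ (Φ ⋙ L) (Localization.Construction.lift (Φ ⋙ L) h₁)) ≪≫
          β)

end general

section repl

variable {C : Type*} {D : Type*} [Category* C] [Category* D] (W : MorphismProperty C)
  [W.HasTwoOutOfThreeProperty] (P : ObjectProperty C) (Q : C ⥤ P.FullSubcategory)
  (q : Q ⋙ P.ι ⟶ 𝟭 C) (hq : ∀ X, W (q.app X))

include hq in
/-- the replacement functor preserves and reflects the weak equivalences -/
theorem repl_map_iff {X Y : C} (f : X ⟶ Y) : W (Q.map f).hom ↔ W f := by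
  have h : (Q.map f).hom ≫ q.app Y = q.app X ≫ f := q.naturality f
  constructor
  · intro hf
    exact W.of_precomp (q.app X) f (hq X) (h ▸ W.comp_mem _ _ hf (hq Y))
  · intro hf
    exact W.of_postcomp (Q.map f).hom (q.app Y) (hq Y) (h ▸ W.comp_mem _ _ (hq X) hf)

/-- the replacement of an object of the subcategory maps to the object -/
def replNat : P.ι ⋙ Q ⟶ 𝟭 P.FullSubcategory where
  app X := ObjectProperty.homMk (q.app X.obj)
  naturality _ _ f := ObjectProperty.hom_ext _ (q.naturality f.hom)

theorem replNat_app_hom (X : P.FullSubcategory) :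
    ((replNat P Q q).app X).hom = q.app X.obj := rfl

omit [W.HasTwoOutOfThreeProperty] in
/-- on the subcategory, the localization of the replacement is the given localization -/
noncomputable def replIso (L₀ : P.FullSubcategory ⥤ D)
    (hL : (W.inverseImage P.ι).IsInvertedBy L₀) : P.ι ⋙ Q ⋙ L₀ ≅ L₀ :=
  (Functor.associator _ _ _).symm ≪≫
    isoOfInverts L₀ (replNat P Q q) (fun X => hL _ (hq X.obj)) ≪≫ Functor.leftUnitor _

omit [W.HasTwoOutOfThreeProperty] in
theorem replIso_hom_app (L₀ : P.FullSubcategory ⥤ D)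
    (hL : (W.inverseImage P.ι).IsInvertedBy L₀) (X : P.FullSubcategory) :
    (replIso W P Q q hq L₀ hL).hom.app X = L₀.map (ObjectProperty.homMk (q.app X.obj)) := by
  change 𝟙 _ ≫ L₀.map (ObjectProperty.homMk (q.app X.obj)) ≫ 𝟙 _ = _
  rw [Category.id_comp, Category.comp_id]

include hq in
/-- A functorial replacement in a full subcategory gives the localization of the whole category. -/
theorem isLocalization_repl (L₀ : P.FullSubcategory ⥤ D)
    [L₀.IsLocalization (W.inverseImage P.ι)] : (Q ⋙ L₀).IsLocalization W :=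
  isLocalization_comp W (W.inverseImage P.ι) Q P.ι L₀
    (fun _ _ f hf => Localization.inverts L₀ (W.inverseImage P.ι) (Q.map f)
      ((repl_map_iff W P Q q hq f).mpr hf))
    (fun _ _ f hf => Localization.inverts W.Q W (P.ι.map f) hf)
    ((Functor.associator _ _ _).symm ≪≫
      isoOfInverts W.Q q (fun X => Localization.inverts W.Q W _ (hq X)) ≪≫ Functor.leftUnitor _)
    (replIso W P Q q hq L₀ (Localization.inverts L₀ _))

end repl

section transfer

variable {A : Type*} {C : Type*} {D : Type*} [Category* A] [Category* C] [Category* D]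

/-- Transfer of a localization along `i : A ⥤ C`: there is `r : C ⥤ A` with natural weak
equivalences `r i ⟶ 1` and `1 ⟵ R ⟶ i r`. -/
theorem isLocalization_transfer (W' : MorphismProperty A) (W : MorphismProperty C)
    [W.HasTwoOutOfThreeProperty] (i : A ⥤ C) (hi : ∀ {X Y : A} (f : X ⟶ Y), W' f ↔ W (i.map f))
    (r : C ⥤ A) (e : i ⋙ r ⟶ 𝟭 A) (he : ∀ X, W' (e.app X)) (R : C ⥤ C) (q : R ⟶ 𝟭 C)
    (hq : ∀ Y, W (q.app Y)) (u : R ⟶ r ⋙ i) (hu : ∀ Y, W (u.app Y)) (L : C ⥤ D)
    [L.IsLocalization W] : (i ⋙ L).IsLocalization W' := by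
  refine isLocalization_comp W' W i r L
    (fun _ _ f hf => Localization.inverts L W (i.map f) ((hi f).mp hf))
    (fun X Y f hf => Localization.inverts W'.Q W' (r.map f) ((hi _).mpr ?_))
    ((Functor.associator _ _ _).symm ≪≫
      isoOfInverts W'.Q e (fun X => Localization.inverts W'.Q W' _ (he X)) ≪≫
        Functor.leftUnitor _)
    ((Functor.associator _ _ _).symm ≪≫
      (isoOfInverts L u (fun X => Localization.inverts L W _ (hu X))).symm ≪≫
        isoOfInverts L q (fun X => Localization.inverts L W _ (hq X)) ≪≫ Functor.leftUnitor _)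
  have h1 : R.map f ≫ q.app Y = q.app X ≫ f := q.naturality f
  have h2 : R.map f ≫ u.app Y = u.app X ≫ i.map (r.map f) := u.naturality f
  have h3 : W (R.map f) := W.of_postcomp _ (q.app Y) (hq Y) (h1 ▸ W.comp_mem _ _ (hq X) hf)
  exact W.of_precomp (u.app X) _ (hu X) (h2 ▸ W.comp_mem _ _ h3 (hu Y))

/-- Transfer along the right adjoint `i` of an adjunction `ρ ⊣ i`, given a replacement
`q : R ⟶ 1` by objects on which the unit is a weak equivalence. -/
theorem isLocalization_adj (W' : MorphismProperty A) (W : MorphismProperty C)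
    [W.HasTwoOutOfThreeProperty] {ρ : C ⥤ A} {i : A ⥤ C} (adj : ρ ⊣ i)
    (hi : ∀ {X Y : A} (f : X ⟶ Y), W' f ↔ W (i.map f)) (R : C ⥤ C) (q : R ⟶ 𝟭 C)
    (hq : ∀ Y, W (q.app Y)) (hu : ∀ Y, W (adj.unit.app (R.obj Y))) (L : C ⥤ D)
    [L.IsLocalization W] : (i ⋙ L).IsLocalization W' := by
  refine isLocalization_transfer W' W i hi (R ⋙ ρ)
    { app := fun X => ρ.map (q.app (i.obj X)) ≫ adj.counit.app X
      naturality := fun X Y f => ?_ } (fun X => (hi _).mpr ?_) R q hq
    { app := fun Y => adj.unit.app (R.obj Y)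
      naturality := fun X Y f => adj.unit.naturality (R.map f) } hu L
  · change ρ.map (R.map (i.map f)) ≫ ρ.map (q.app (i.obj Y)) ≫ adj.counit.app Y =
      (ρ.map (q.app (i.obj X)) ≫ adj.counit.app X) ≫ f
    have h1 : R.map (i.map f) ≫ q.app (i.obj Y) = q.app (i.obj X) ≫ i.map f :=
      q.naturality (i.map f)
    have h2 : ρ.map (i.map f) ≫ adj.counit.app Y = adj.counit.app X ≫ f :=
      adj.counit.naturality f
    rw [← ρ.map_comp_assoc, h1, ρ.map_comp_assoc, h2, Category.assoc]
  · change W (i.map (ρ.map (q.app (i.obj X)) ≫ adj.counit.app X))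
    refine W.of_precomp (adj.unit.app (R.obj (i.obj X))) _ (hu _) ?_
    have h1 : adj.unit.app (R.obj (i.obj X)) ≫ i.map (ρ.map (q.app (i.obj X))) =
        q.app (i.obj X) ≫ adj.unit.app (i.obj X) := (adj.unit.naturality (q.app (i.obj X))).symm
    have h2 : adj.unit.app (R.obj (i.obj X)) ≫
        i.map (ρ.map (q.app (i.obj X)) ≫ adj.counit.app X) = q.app (i.obj X) := by
      rw [i.map_comp, ← Category.assoc, h1, Category.assoc, adj.right_triangle_components]
      exact Category.comp_id _
    rw [h2]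
    exact hq _

end transfer

end Vale.Agent.P251CL
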